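import Vale.Agent.P154.BinAnti
import Vale.Agent.P154.D3Neg
import Vale.Agent.P154.DeSmall
import Vale.Agent.P154.HinvPot
import Vale.Agent.P154.InvTrees
import Vale.Agent.P154.FourBridge
import Vale.Agent.P154.FourAllDecay
import Vale.Agent.P154.LyMono
import Vale.Agent.P154.LyCover

/-!
The reconstruction threshold of the three- and four-state Potts channels on trees.
-/

open scoped ENNReal
open Filter

namespace Vale.Agent.Results.P154.PottsTreeFull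

open Vale.Agent.P154

private lemma hinv_range {d l : ℝ} (hdl : d * l ^ 2 ≤ 1) (hd : 12 ≤ d) :
    -(7217 / 25000) ≤ l := by
  have : 12 * l ^ 2 ≤ d * l ^ 2 := mul_le_mul_of_nonneg_right hd (sq_nonneg l)
  nlinarith

private lemma hinv_pot {l : ℝ} (h0 : -(7217 / 25000) ≤ l) (h1 : l ≤ 0) :
    ∃ (μ γ : ℝ) (φ ψ : (Spin → ℝ) → ℝ), Hinv.Pot2 l 1 2 (1 / 2000) μ γ φ ψ :=
  ⟨_, _, _, _, Hinv.pot2 (by rw [Hinv.edge]; linarith) h1⟩

private lemma three_regular {d : ℕ} {l : ℝ} (hd : 2 ≤ d) (hl : -(1 / 2) ≤ l) (hu : l ≤ 1)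
    (hdl : (d : ℝ) * l ^ 2 ≤ 1) : Tendsto (fun n => tv l n (regular d n)) atTop (nhds 0) := by
  rcases le_total 0 l with h | hl0
  · exact Inv.tendsto_tv_regular h hu hd hdl
  rcases le_or_gt 12 d with h | h
  · obtain ⟨μ, γ, φ, ψ, hP⟩ := hinv_pot (hinv_range hdl (by exact_mod_cast h)) hl0
    exact Hinv.tendsto_tv_regular hl hu one_pos two_pos
      (by norm_num : (0 : ℝ) < 1 / 2000) hP (by omega) hdl
  · rcases le_or_gt 4 d with h4 | h4
    · exact De.tendsto_tv_regular_small h4 (by omega) hl0 hdl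
    · interval_cases d
      · exact Bin.tendsto_tv_binary_neg hl hl0
      · exact D3Neg.tendsto_tv_three_neg hl hl0

private lemma three_poisson {d l : ℝ} (hd : 0 < d) (hl : -(1 / 2) ≤ l) (hu : l ≤ 1)
    (hdl : d * l ^ 2 ≤ 1) : Tendsto (gwTV (poissonLaw d) l) atTop (nhds 0) := by
  rcases le_total 0 l with h | hl0
  · exact Inv.tendsto_gwTV_poisson hd h hu hdl
  refine Ly.poisson_antiferro_of_critical (fun d h4 => ?_) hd hl hl0 hdl
  rcases lt_or_ge d 12 with h | h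
  · exact Ly.tendsto_gwTV_crit d h4 h.le
  have hs : √d ^ 2 = d := Real.sq_sqrt (by linarith)
  have hpos : 0 < √d := Real.sqrt_pos.mpr (by linarith)
  have h2 : 2 ≤ √d := by
    rw [← Real.sqrt_sq (show (0 : ℝ) ≤ 2 by norm_num)]; exact Real.sqrt_le_sqrt (by linarith)
  have hc : d * (-(1 / √d)) ^ 2 = 1 := by rw [neg_sq, div_pow, one_pow, hs]; field_simp
  have h0 : -(1 / √d) ≤ 0 := by simp
  obtain ⟨μ, γ, φ, ψ, hP⟩ := hinv_pot (hinv_range hc.le h) h0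
  have hhalf : 1 / √d ≤ 1 / 2 := one_div_le_one_div_of_le two_pos h2
  refine Hinv.tendsto_gwTV (by linarith) (by linarith) one_pos two_pos
    (by norm_num : (0 : ℝ) < 1 / 2000) (by nlinarith) hP _ (poissonLaw_sum (by linarith)) ?_
  rw [poissonLaw_mean (by linarith), ← ENNReal.ofReal_mul (sq_nonneg _)]
  exact ENNReal.ofReal_le_one.mpr (by linarith)

theorem result :
    (∀ (d : ℕ) (l : ℝ), 2 ≤ d → -(1 / 2) ≤ l → l ≤ 1 →
      ∃ r : ℝ, Tendsto (fun n => tv l n (regular d n)) atTop (nhds r) ∧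
        (0 < r ↔ 1 < (d : ℝ) * l ^ 2)) ∧
    (∀ d l : ℝ, 0 < d → -(1 / 2) ≤ l → l ≤ 1 →
      ∃ r : ℝ≥0∞, Tendsto (gwTV (poissonLaw d) l) atTop (nhds r) ∧
        (0 < r ↔ 1 < d * l ^ 2)) ∧
    (∀ (d : ℕ) (l : ℝ), 2 ≤ d → 0 ≤ l → l ≤ 1 →
      ∃ r : ℝ, Tendsto (fun n => Four.tv l n (regular d n)) atTop (nhds r) ∧
        (0 < r ↔ 1 < (d : ℝ) * l ^ 2)) ∧
    (∀ d l : ℝ, 0 < d → 0 ≤ l → l ≤ 1 →
      ∃ r : ℝ≥0∞, Tendsto (Four.gwTV (poissonLaw d) l) atTop (nhds r) ∧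
        (0 < r ↔ 1 < d * l ^ 2)) ∧
    (∀ (l : ℝ) (p : ℕ → ℝ≥0∞), -(7217 / 25000) ≤ l → l ≤ 0 → ∑' k, p k = 1 →
      ENNReal.ofReal (l ^ 2) * ∑' k : ℕ, (k : ℝ≥0∞) * p k ≤ 1 →
        Tendsto (gwTV p l) atTop (nhds 0)) ∧
    (∀ (l : ℝ) (p : ℕ → ℝ≥0∞), 0 ≤ l → l ≤ 1 → (l < 1 ∨ ∃ k, 2 ≤ k ∧ p k ≠ 0) → ∑' k, p k = 1 →
      ENNReal.ofReal (l ^ 2) * ∑' k : ℕ, (k : ℝ≥0∞) * p k ≤ 1 →
        Tendsto (Four.gwTV p l) atTop (nhds 0)) := by
  refine ⟨fun d l hd hl hu => ?_, fun d l hd hl hu => ?_, fun d l hd hl hu => ?_,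
    fun d l hd hl hu => ?_, fun l p h0 h1 hp hm => ?_,
    fun l p h0 h1 hns hp hm => Four.All.gw_nonreconstruction h0 h1 hp hm hns⟩
  · obtain ⟨r, -, hr, hpos⟩ := KS.regular_limit_three hl hu d
    refine ⟨r, hr, hpos.trans ⟨fun h => ?_, KS.not_tendsto_tv_regular hl hu⟩⟩
    by_contra hc
    exact h (three_regular hd hl hu (not_lt.mp hc))
  · obtain ⟨r, hlim, hpos⟩ := KS.gw_limit_three hl hu (poissonLaw d) (poissonLaw_sum hd.le)
    refine ⟨r, hlim, hpos.trans ⟨fun h => ?_, KS.not_tendsto_gwTV_poisson hl hu hd.le⟩⟩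
    by_contra hc
    exact h (three_poisson hd hl hu (not_lt.mp hc))
  · exact Four.regular_threshold hl hu (Four.All.regular_nonreconstruction hd hl)
  · refine Four.poisson_threshold hd.le hl hu fun hdl =>
      Four.All.gw_nonreconstruction hl hu (poissonLaw_sum hd.le) ?_ (Or.inr ⟨2, le_rfl, ?_⟩)
    · rw [poissonLaw_mean hd.le, ← ENNReal.ofReal_mul (sq_nonneg l)]
      exact ENNReal.ofReal_le_one.mpr (by linarith)
    · simp only [poissonLaw, ne_eq, ENNReal.ofReal_eq_zero, not_le]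
      positivity
  · obtain ⟨μ, γ, φ, ψ, hP⟩ := hinv_pot h0 h1
    exact Hinv.tendsto_gwTV (by linarith) (by linarith) one_pos two_pos
      (by norm_num : (0 : ℝ) < 1 / 2000) (by nlinarith) hP p hp hm

end Vale.Agent.Results.P154.PottsTreeFull
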